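import Crest.Agent.N255.Lz.Zn

/-!
# Row 255 (helper85): the located ideals of a vertex family: far parts, deep zones, centre ideals
-/

set_option autoImplicit false
open Set Module

noncomputable section

namespace Crest.Agent.N255.Lz

open Cs Cs.Tw Tp _root_.N255.Sl
open Ku (Kl ci_iff)

variable {p : ℕ} [Fact p.Prime] {K O : Type} [Field K] [CommRing O] [Algebra K O]
  {G : Gr (Gm p) K O} {m I J : Ideal O} {X : Type} [TopologicalSpace X] {P : Sb X} {n : ℕ}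

theorem vI_congr {φ ψ : Co (Tw G) n X} (h : ∀ σ ∈ P.S n, φ σ = ψ σ) : vI P φ = vI P ψ :=
  le_antisymm ((vI_le (id_vI _ _)).2 fun σ hσ => h σ hσ ▸ ci_vI P ψ σ hσ)
    ((vI_le (id_vI _ _)).2 fun σ hσ => (h σ hσ).symm ▸ ci_vI P φ σ hσ)

theorem lin_zero {α : Type} [Fintype α] {q : α → Co K n X} (h : ∀ a, q a ∈ P.van K K n)
    (ε : α → Tw G) {σ : Sx n X} (hσ : σ ∈ P.S n) : lin q ε σ = 0 :=
  Finset.sum_eq_zero fun a _ => by rw [h a σ hσ, zero_smul]

theorem cap_ch {i j : ℕ} (h : j ≤ n) (φ : Co K i X) {c : Ch K n X} (hc : c ∈ P.ch K n) :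
    cap j φ c ∈ P.ch K j :=
  Cp.ev_mem _ _ _ (fun _ hσ => Submodule.smul_mem _ _ (Cp.sg_mem (sb_sub _ hσ fun a b hab => by
    have := b.2
    have : a.1 < b.1 := hab
    simp only [Fin.mk_lt_mk]; omega))) hc

theorem cap'_ch {i j : ℕ} (h : j ≤ n) (φ : Co K i X) {c : Ch K n X} (hc : c ∈ P.ch K n) :
    cap' j φ c ∈ P.ch K j :=
  Cp.ev_mem _ _ _ (fun _ hσ => Submodule.smul_mem _ _ (Cp.sg_mem (sb_sub _ hσ fun a b hab => by
    have := b.2
    have : a.1 < b.1 := hab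
    simp only [Fin.mk_lt_mk]; omega))) hc

/-- the curvature ideal of a family which is close to the image of another family -/
theorem vI_cur_le [Fact ((p : O) = 0)] {O' : Type} [CommRing O'] [Algebra K O']
    [Fact ((p : O') = 0)] {G' : Gr (Gm p) K O'} {φ : O' →ₐ[K] O} (hφ : G'.Hom G φ) {g : Cn G X}
    {k : Cn G' X} (hJ : G.Id J) (h : CI P J (dif g (mp hφ k))) {I' : Ideal O'} (hI : G'.Id I')
    (f : CI P I' (cur k)) : vI P (cur g) ≤ I'.map φ ⊔ J :=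
  (vI_le ((hφ.map hI).sup hJ)).2 fun σ hσ => by
    rw [← add_sub_cancel (cur (mp hφ k) σ) (cur g σ)]
    exact In.add ((CI.mp hφ (fun x hx => Ideal.mem_map_of_mem _ hx) f σ hσ).mono le_sup_left)
      ((cur_sub_mem' hJ h σ hσ).mono le_sup_right)

namespace Gz

variable {κ α ι β : Type} [Fintype κ] [Fintype α] (Y : Gz K X κ α ι)

/-- normalised, zero on the far parts of the zones towards the vertex, zero if the zone is deep -/
def M1 (Nf : Co K 2 X → Prop) (Fz : κ → Sb X) (dp : κ → Prop) (k : κ) (u : Co K 2 X) : Prop :=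
  Nf u ∧ (∀ k', Y.nb1 k k' → u ∈ (Fz k').van K K 2) ∧ (dp k → u ∈ (Y.P k).van K K 2)

/-- normalised, zero on the far parts of the zones towards the wall -/
def M2 (Nf : Co K 2 X → Prop) (Fz : κ → Sb X) (k : κ) (u : Co K 2 X) : Prop :=
  Nf u ∧ ∀ k', Y.nb2 k k' → u ∈ (Fz k').van K K 2

/-- the normal form property on all zones -/
def NF (u : Co K 2 X) : Prop :=
  ∀ k, ∀ θ ∈ Cc K univ K 1, u - cob K θ ∈ (Y.P k).van K K 2 → u ∈ (Y.P k).van K K 2

variable {Y}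

omit [Fintype κ] [Fintype α] in
theorem NF.congr {u u' : Co K 2 X} (h : Y.NF u) (e : ∀ k, u' - u ∈ (Y.P k).van K K 2) : Y.NF u' :=
  fun k θ hθ h' => by
    have := h k θ hθ (by convert sub_mem h' (e k) using 1; abel)
    simpa using add_mem (e k) this

variable [Module.Finite K O] (Y) (g : Cn G X) (ε : α → Tw G)

/-- the number of generators of a zone ideal -/
def ng (k : κ) : ℕ := (exists_gen (id_vI (Y.P k) (Y.f g ε))).choose

/-- generators of a zone ideal -/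
def gn (k : κ) : Fin (Y.ng g ε k) × Gm p → O := (exists_gen (id_vI (Y.P k) (Y.f g ε))).choose_spec.choose

/-- the index of the extra generators -/
abbrev Bx (β : Type) : Type := β ⊕ Σ k : κ, Fin (Y.ng g ε k) × Gm p

open Classical in
/-- the extra generators: the given ones and the generators of the ideals of the deep zones -/
def bx (dp : κ → Prop) (b : β → O) : Y.Bx g ε β → O :=
  Sum.elim b fun i => if dp i.1 then Y.gn g ε i.1 i.2 else 0

/-- their positions -/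
def px : Y.Bx g ε β → ℕ := Sum.elim 0 fun i => Y.pos i.1

variable {Y g ε} {dp : κ → Prop} {b : β → O}

omit [Fintype κ] in
theorem gn_hg (k : κ) (i : Fin (Y.ng g ε k) × Gm p) : G.Hg i.2 (Y.gn g ε k i) :=
  (exists_gen (id_vI (Y.P k) (Y.f g ε))).choose_spec.choose_spec.1 i

omit [Fintype κ] in
theorem span_gn (k : κ) : Ideal.span (range (Y.gn g ε k)) = vI (Y.P k) (Y.f g ε) :=
  (exists_gen (id_vI (Y.P k) (Y.f g ε))).choose_spec.choose_spec.2

omit [Fintype κ] in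
theorem gn_mem (k : κ) (i : Fin (Y.ng g ε k) × Gm p) : Y.gn g ε k i ∈ vI (Y.P k) (Y.f g ε) :=
  (span_gn (Y := Y) (g := g) (ε := ε) k).le (Ideal.subset_span ⟨i, rfl⟩)

omit [Fintype κ] in
theorem bx_inl (i : β) : Y.bx g ε dp b (.inl i) = b i := rfl

omit [Fintype κ] in
theorem px_inl (i : β) : Y.px g ε (.inl i : Y.Bx g ε β) = 0 := rfl

omit [Fintype κ] in
/-- the new generators are zero or values of the normalised curvature at a deep position -/
theorem bx_inr (i : Σ k : κ, Fin (Y.ng g ε k) × Gm p) : Y.bx g ε dp b (.inr i) = 0 ∨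
    (dp i.1 ∧ Y.px g ε (.inr i : Y.Bx g ε β) = Y.pos i.1 ∧
      Y.bx g ε dp b (.inr i) ∈ vI (Y.P i.1) (Y.f g ε)) := by
  by_cases h : dp i.1
  · exact Or.inr ⟨h, rfl, by simp only [bx, Sum.elim_inr, if_pos h]; exact gn_mem _ _⟩
  · exact Or.inl (by simp only [bx, Sum.elim_inr, if_neg h])

omit [Fintype κ] in
theorem bx_hg (hb : ∀ i, ∃ a, G.Hg a (b i)) (i : Y.Bx g ε β) : ∃ a, G.Hg a (Y.bx g ε dp b i) := by
  rcases i with i | i
  · exact hb i
  · by_cases h : dp i.1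
    · exact ⟨_, by simp only [bx, Sum.elim_inr, if_pos h]; exact gn_hg _ _⟩
    · exact ⟨0, by simp only [bx, Sum.elim_inr, if_neg h]; exact G.hg_zero _⟩

omit [Fintype κ] in
theorem span_le_Bk (k : κ) : Ideal.span (range b) ≤ Y.Bk (Y.bx g ε dp b) (Y.px g ε) k := by
  rw [span_range_eq]
  exact iSup_le fun i => le_iSup₂_of_le (f := fun (i : Y.Bx g ε β) (_ : Y.px g ε i ≤ Y.pos k + Y.γ) =>
    Ideal.span {Y.bx g ε dp b i}) (.inl i) (Nat.zero_le _) le_rfl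

omit [Fintype κ] in
theorem deep_le_Bk {k : κ} (h : dp k) :
    vI (Y.P k) (Y.f g ε) ≤ Y.Bk (Y.bx g ε dp b) (Y.px g ε) k := by
  rw [← span_gn, span_range_eq]
  exact iSup_le fun i => le_iSup₂_of_le (f := fun (i : Y.Bx g ε β) (_ : Y.px g ε i ≤ Y.pos k + Y.γ) =>
    Ideal.span {Y.bx g ε dp b i}) (.inr ⟨k, i⟩) (Nat.le_add_right _ _)
    (by simp only [bx, Sum.elim_inr, if_pos h, le_rfl])

/-- **the located ideals of a vertex family**: `b` are the macroscopic extra generators -/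
theorem Ok.vx [Fact ((p : O) = 0)] (h : Y.Ok) {hm : G.Id m} (hg : ∀ k, CU (Y.P k) hm g)
    {Wt : ℕ → Ideal O} {μ : ℕ} (fl : Fl Wt) (nil : IsNilpotent m) (mle : m ≤ Wt μ)
    (gap : 3 * Y.γ < μ) (hb : ∀ i, ∃ a, G.Hg a (b i)) {Kk : ι → Ideal O} (hK : ∀ e, G.Id (Kk e))
    {Nf : Co K 2 X → Prop} {Fz : κ → Sb X} (h1 : ∀ k u, Y.M1 Nf Fz dp k u → Y.N1 k u)
    (h2 : ∀ k u, Y.γ < Y.pos k → Y.M2 Nf Fz k u → Y.N2 k u)
    (nf : ∀ l, Nf (Ku.lc l (Y.f g ε)))
    (f0 : ∀ k, Y.pos k = 0 → CI (Fz k) (Ideal.span (range b) ⊔ m * Y.Iz g ε k) (Y.f g ε))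
    (f1 : ∀ k, 0 < Y.pos k → CI (Fz k) (m * Y.Iz g ε k) (Y.f g ε)) :
    (Y.zn g ε Wt m μ (Y.bx g ε dp b) (Y.px g ε) Kk).Ok := by
  refine h.zn hg fl nil mle gap (bx_hg hb) hK (fun k l hl => h1 k _ ⟨nf l, fun k' hk' => ?_,
    fun hd => ci_iff.1 (ci_vI _ _) l (hl.mono (le_sup_of_le_left (deep_le_Bk hd)))⟩)
    fun k l hk hl => h2 k _ hk ⟨nf l, fun k' hk' => ?_⟩
  · have e : m * Y.Iz g ε k' ≤ Y.J1 g ε m k :=
      Ideal.mul_mono_right (le_iSup₂_of_le k' hk' le_rfl)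
    rcases Nat.eq_zero_or_pos (Y.pos k') with h0 | h0
    · exact ci_iff.1 (f0 k' h0) l (hl.mono (sup_le_sup (span_le_Bk k) e))
    · exact ci_iff.1 (f1 k' h0) l (hl.mono (le_sup_of_le_right e))
  · have e : m * Y.Iz g ε k' ≤ Y.J2 g ε m k :=
      Ideal.mul_mono_right (le_iSup₂_of_le k' hk' le_rfl)
    exact ci_iff.1 (f1 k' (by have := hk'.1; omega)) l (hl.mono (le_sup_of_le_right e))

omit [Fintype κ] [Module.Finite K O] in
theorem f_eq (h : ∀ a, Y.q a ∈ P.van K K 2) {σ : Sx 2 X} (hσ : σ ∈ P.S 2) : Y.f g ε σ = cur g σ := by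
  simp [f, lin_zero h ε hσ]

omit [Module.Finite K O] in
/-- **the centre ideals** -/
theorem IK_le [Fact ((p : O) = 0)] {O' : Type} [CommRing O'] [Algebra K O'] [Fact ((p : O') = 0)]
    {G' : Gr (Gm p) K O'} {φ : O' →ₐ[K] O} (hφ : G'.Hom G φ) {k : Cn G' X} {e : ι}
    (hq : ∀ a, Y.q a ∈ (Y.PK e).van K K 2) (hJ : G.Id J) (h : CI (Y.PK e) J (dif g (mp hφ k)))
    {I' : Ideal O'} (hI : G'.Id I') (f : CI (Y.PK e) I' (cur k)) {Wt : ℕ → Ideal O} {μ : ℕ}
    {pb : β → ℕ} {Kk : ι → Ideal O} (hK : Kk e ≤ I'.map φ ⊔ J) :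
    (Y.zn g ε Wt m μ b pb Kk).IK e ≤ I'.map φ ⊔ J :=
  sup_le ((vI_congr fun _ hσ => f_eq hq hσ).le.trans (vI_cur_le hφ hJ h hI f)) hK

omit [Module.Finite K O] in
/-- the generators lie in every graded ideal which contains the values of the normalised curvature -/
theorem E_mem (h : ∀ k, Y.ρ k ∈ (Y.P k).ch K 4) (hJ : G.Id J) (f : ∀ k, CI (Y.P k) J (Y.f g ε))
    (a : α) (γ : Gm p) : Y.E g ε a γ ∈ J := by
  refine co_mem hJ ?_ ?_ γ <;> rw [map_sum, map_sum] <;> change o G _ ∈ J <;> rw [map_sum]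
  · exact sum_mem fun k _ => (f k).ev (cap_ch (by decide) _ (h k))
  · exact sum_mem fun k _ => (f k).ev (cap'_ch (by decide) _ (h k))

end Gz

end Crest.Agent.N255.Lz

end
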