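import Crest.Agent.N255.Lz.Vx
import Crest.Agent.N255.Ms.Bas
import Crest.Agent.N255.En.Cm
import Crest.Agent.N255.En.Off

/-!
# Row 255 (helper85): the normalised curvature of a vertex family on the far parts of the zones
-/

set_option autoImplicit false
open Set

noncomputable section

namespace Crest.Agent.N255.Lz

open Cs Cs.Tw Tp

variable {p : ℕ} [Fact p.Prime] {K O : Type} [Field K] [CommRing O] [Algebra K O]
  {G : Gr (Gm p) K O} {m I J B N : Ideal O} {X : Type} [TopologicalSpace X] {P Q : Sb X}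

section core
variable {t : Fin 3 → Bool} {V : Vt K X t} {C : Fin 3 → Set X} {x a b : Fin 3 → (Tw G)ˣ}
  {hm : G.Id m} {hn : IsNilpotent m} {hx : ∀ j, x j ∈ U hm}

theorem ja_m (hx : ∀ j, x j ∈ U hm) {j : Fin 3} (ha : a j ∈ U hm) : In m (Ms.ja V x a j) := by
  unfold Ms.ja
  split_ifs
  · exact In.eq (In.sub ha (hx j)) (by abel)
  · exact In.eq (In.sub ha ((V.la_in hm hx j).mono Ideal.mul_le_right)) (by abel)

theorem jb_m (hx : ∀ j, x j ∈ U hm) {j : Fin 3} (hb : b j ∈ U hm) : In m (Ms.jb V x b j) := by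
  unfold Ms.jb
  split_ifs
  · exact In.eq (In.sub hb ((V.la_in hm hx j).mono Ideal.mul_le_right)) (by abel)
  · exact In.eq (In.sub hb (hx j)) (by abel)

/-- the coboundary of the jump -/
theorem cob_jp (hC : Pairwise fun i j => Disjoint (C i) (C j)) (σ : Sx 2 X) :
    cob K (Ms.jp V (Ms.slv C) x a b) σ =
      ∑ j, (cob K (Wv.ct (C j) (Ms.zc K (V.T j).al)) σ • Ms.ja V x a j +
        cob K (Wv.ct (C j) (Ms.zc K (V.T j).be)) σ • Ms.jb V x b j) := by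
  simp only [cob_d1, d1, Ms.jp_eq hC, add_smul, sub_smul, Finset.sum_add_distrib,
    Finset.sum_sub_distrib]
  abel

/-- **the far part of a zone**: the jumps on `al` lie in `B`, the jumps on `be` are the sources -/
theorem far_core (hC : Pairwise fun i j => Disjoint (C i) (C j)) (hB : G.Id B) (hI : G.Id I)
    (hN : G.Id N) (Nm : N ≤ m) (NB : N * N * N ≤ B) (h : ∀ j, x j ∈ U hN)
    (ha : ∀ j, a j ∈ U hm) (hb : ∀ j, b j ∈ U hm) (ja : ∀ j, In B (Ms.ja V x a j))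
    (jb : ∀ j, In I (Ms.jb V x b j)) (hM : Q.Le V.M.P)
    (hT : ∀ e ∈ Q.S 1, ∀ j, Ms.slv C e = some j → e ∈ (V.T j).P.S 1) {g : Cn G X}
    (hg : ∀ e ∈ Q.S 1, g e = Ms.bs V (Ms.slv C) a b hm hn hx e) {S : Co (Tw G) 2 X}
    (hS : ∀ σ ∈ Q.S 2, S σ = ∑ j, cob K (Wv.ct (C j) (Ms.zc K (V.T j).be)) σ • Ms.jb V x b j) :
    CI Q (B ⊔ m * I) (cur g - S) := fun σ hσ => by
  have e1 := Ms.cur_bs (hm := hm) (hn := hn) (hx := hx) hN ((hB.sup hI).inf hm) Nm inf_le_right h ha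
    hb (hM 2 hσ) fun i l q j hj => ⟨hT _ (e2_mem _ hσ q) j hj,
      ⟨(ja j).mono le_sup_left, ja_m hx (ha j)⟩, (jb j).mono le_sup_right, jb_m hx (hb j)⟩
  have l : N * N * N ⊔ m * ((B ⊔ I) ⊓ m) ≤ B ⊔ m * I := by
    refine sup_le (le_sup_of_le_left NB) ((Ideal.mul_mono_right inf_le_left).trans ?_)
    rw [Ideal.mul_sup]
    exact sup_le_sup_right Ideal.mul_le_right _
  refine In.eq (In.add (e1.mono l) ((In.sum (s := Finset.univ) fun j _ => (ja j).ksmul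
    (cob K (Wv.ct (C j) (Ms.zc K (V.T j).al)) σ)).mono le_sup_left)) ?_
  rw [Pi.sub_apply, cur_congr hg hσ, hS σ hσ, cob_jp hC, Finset.sum_add_distrib]
  abel

end core

section slot
open En Pt Wn Nv Crest.Agent.N255.Lv

variable {ι S : Type} [DecidableEq ι] [MulAction (FreeGroup ι) S] {w : Wl ι S}
  {F : Subgroup (FreeGroup ι)} [MulAction F X] {L : Lev w F X} {M : Md w} {ε R₀ R l r : ℝ}
  {e e' : Ed ι} {o : Bool} {g : Cn G X} {a b : (Tw G)ˣ}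

theorem win_rev (e : Ed ι) (l r : ℝ) : win (L.s (rev e)) (1 - r) (1 - l) = win (L.s e) l r := by
  ext y
  simp only [win, mem_ofPred_eq, L.s_rev]
  constructor <;> rintro ⟨_, _⟩ <;> constructor <;> linarith

theorem fw_rev (e : Ed ι) (l r R : ℝ) :
    fw (L.s (rev e)) L.r (1 - r) (1 - l) R = fw (L.s e) L.r l r R := by
  ext y
  simp only [fw, mem_ofPred_eq, L.s_rev]
  constructor <;> rintro ⟨_, _, _⟩ <;> refine ⟨‹_›, ?_, ?_⟩ <;> linarith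

/-- the commutator for both orientations -/
theorem cm_or [T2Space X] {Or : Ori K 3 X} {u : Kˣ} (he : e' = if o then e else rev e)
    (hd : L.Deg M Or u) (hB : L.Big ε R₀) (hε : 0 < ε) (h0 : ε ≤ l) (h1 : l < r) (h2 : r ≤ 1 - ε)
    (hP : (L.Sb (win (L.s e) l r)).Le P) {hm : G.Id m} (hn : IsNilpotent m) (hI : G.Id I)
    (ha : a ∈ U hm) (hb : b ∈ U hm)
    (hg : ∀ σ ∈ (L.Sb (fw (L.s e) L.r l r R)).S 1, g σ = L.gs0 M R₀ e' a b σ)
    (h : CU P hm g) (f : CI P I (cur g)) : In (m * I) (a.val * b.val - b.val * a.val) := by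
  cases o
  · obtain rfl : e' = rev e := he
    exact Lev.cm_mem' (l := 1 - r) (r := 1 - l) (R := R) hd hB hε (by linarith) (by linarith)
      (by linarith) (by rwa [win_rev]) hn hI ha hb (by rwa [fw_rev]) h f
  · obtain rfl : e' = e := he
    exact Lev.cm_mem' hd hB hε h0 h1 h2 hP hn hI ha hb hg h f

/-- **the far part of a zone in a wall** -/
theorem far_slot [T2Space X] {Or : Ori K 3 X} {u : Kˣ} (he : e' = if o then e else rev e)
    (hd : L.Deg M Or u) (hB : L.Big ε R₀) (hε : 0 < ε) (h0 : ε ≤ l) (h1 : l < r) (h2 : r ≤ 1 - ε)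
    (hP : (L.Sb (win (L.s e) l r)).Le P) {hm : G.Id m} (hn : IsNilpotent m) (hI : G.Id I)
    (ha : a ∈ U hm) (hb : b ∈ U hm) (hQ : (L.Sb (fw (L.s e) L.r l r R)).Le Q)
    (hL : Q.Le (L.Lb R₀ (w.T e))) (hg : ∀ σ ∈ Q.S 1, g σ = L.gs0 M R₀ e' a b σ)
    (h : CU P hm g) (f : CI P I (cur g)) : CI Q (m * I) (cur g) :=
  Lev.cur_gs0 (hm.mul hI) (cm_or he hd hB hε h0 h1 h2 hP hn hI ha hb (fun σ hσ => hg σ (hQ 1 hσ)) h f)
    (e := e') (by
      cases o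
      · rw [show e' = rev e from he, w.T_rev]; exact hL
      · rw [show e' = e from he]; exact hL) hg

end slot

namespace Gz

variable {κ α ι' : Type} [Fintype α] {Y : Gz K X κ α ι'} {g : Cn G X} {ε : α → Tw G} {k : κ}

/-- **`f0` for the core zone** -/
theorem far0 {t : Fin 3 → Bool} {V : Vt K X t} {C : Fin 3 → Set X} {x a b : Fin 3 → (Tw G)ˣ}
    {hm : G.Id m} {hn : IsNilpotent m} {hx : ∀ j, x j ∈ U hm} (hk : Y.pos k = 0)
    (hC : Pairwise fun i j => Disjoint (C i) (C j)) (hB : G.Id B) (hN : G.Id N) (Nm : N ≤ m)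
    (NB : N * N * N ≤ B) (h : ∀ j, x j ∈ U hN) (ha : ∀ j, a j ∈ U hm) (hb : ∀ j, b j ∈ U hm)
    (ja : ∀ j, In B (Ms.ja V x a j)) (jb : ∀ j, Ms.jb V x b j = 0 ∨ ∃ i, Ms.jb V x b j = ε i)
    (hM : Q.Le V.M.P) (hT : ∀ e ∈ Q.S 1, ∀ j, Ms.slv C e = some j → e ∈ (V.T j).P.S 1)
    (hg : ∀ e ∈ Q.S 1, g e = Ms.bs V (Ms.slv C) a b hm hn hx e)
    (hS : ∀ σ ∈ Q.S 2, lin Y.q ε σ =
      ∑ j, cob K (Wv.ct (C j) (Ms.zc K (V.T j).be)) σ • Ms.jb V x b j) :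
    CI Q (B ⊔ m * Y.Iz g ε k) (Y.f g ε) :=
  far_core hC hB (id_Iz k) hN Nm NB h ha hb ja (fun j => (jb j).elim (fun q => q ▸ in_zero)
    fun ⟨_, q⟩ => q ▸ in_eps_Iz (hk ▸ Nat.zero_le _)) hM hT hg hS

open En Pt Wn Nv Crest.Agent.N255.Lv in
/-- **`f0` and `f1` for the zones of a wall** -/
theorem far1 {ι S : Type} [DecidableEq ι] [MulAction (FreeGroup ι) S] {w : Wl ι S}
    {F : Subgroup (FreeGroup ι)} [MulAction F X] {L : Lev w F X} {M : Md w} {ε₀ R₀ R l r : ℝ}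
    {e e' : Ed ι} {o : Bool} {a b : (Tw G)ˣ} [T2Space X] {Or : Ori K 3 X} {u : Kˣ}
    (loc : ∀ i, Y.pa i < Y.pos k → Y.q i ∈ (Y.P k).van K K 2) (he : e' = if o then e else rev e)
    (hd : L.Deg M Or u) (hB : L.Big ε₀ R₀) (hε : 0 < ε₀) (h0 : ε₀ ≤ l) (h1 : l < r) (h2 : r ≤ 1 - ε₀)
    (hP : (L.Sb (win (L.s e) l r)).Le (Y.P k)) {hm : G.Id m} (hn : IsNilpotent m)
    (ha : a ∈ U hm) (hb : b ∈ U hm) (hQ : (L.Sb (fw (L.s e) L.r l r R)).Le Q)
    (hL : Q.Le (L.Lb R₀ (w.T e))) (hg : ∀ σ ∈ Q.S 1, g σ = L.gs0 M R₀ e' a b σ)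
    (h : CU (Y.P k) hm g) (hS : ∀ σ ∈ Q.S 2, lin Y.q ε σ = 0) :
    CI Q (m * Y.Iz g ε k) (Y.f g ε) := fun σ hσ => by
  rw [f, Pi.sub_apply, hS σ hσ, sub_zero]
  exact far_slot he hd hB hε h0 h1 h2 hP hn (id_Iz k) ha hb hQ hL hg h (ci_cur loc) σ hσ

end Gz

end Crest.Agent.N255.Lz

end
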